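import Crest.Agent.N255.Ma.Vd
import Crest.Agent.N255.Ma.Sig
import Crest.Agent.N255.En.Off
import Crest.Agent.N255.En.VtS

/-!
# Row 255 (helper74): existence of the vertex data and of the compact set `K` of `Vd.Off`
-/

set_option autoImplicit false
open Set Sum

noncomputable section

namespace Crest.Agent.N255.Ma
open Tp Nv Pt Lv En Wn Le Cs

variable {F : Subgroup F3} {S : Type} [MulAction F3 S] {X : Type} [TopologicalSpace X]
  [MulAction F X] [ContinuousConstSMul F X] {J : Fin 3 → Type} [∀ i, Fintype (J i)]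

/-- a finite family of compactly supported cochains vanishes off one compact set -/
theorem exists_van_off {k ι : Type} [Field k] [Finite ι] {m : ℕ} {φ : ι → Co k m X}
    (h : ∀ i, φ i ∈ Cc k univ k m) : ∃ K, IsCompact K ∧ ∀ i, φ i ∈ (On Kᶜ).van k k m := by
  choose K h1 _ h3 using h
  exact ⟨⋃ i, K i, isCompact_iUnion h1, fun i => van_supp (subset_iUnion K i) (h3 i)⟩

section scalar
variable {k : Type} [Field k] {g : Geo F k S X} {u R₀ : ℝ} {n : ℕ}

variable {τ : ∀ i, Ty (J i)} {v : F3} {h o : Fin 3 → Bool}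

/-- the vertex data from three walls, the linear classes and the parametrix -/
theorem exists_vd_of (hn : 0 < n) (ω : ∀ i, Wd g u R₀ n (τ i) (st v h i) (o i))
    (dep : ∀ i j, i ≠ j → (ω i).Dep (ω j))
    (hl : ∀ c : Fin 3 → ℝ, (∀ i, 0 ≤ c i) → Nonempty (Vl.Lin ω c)) (hf : Nonempty (VF ω)) :
    ∃ D : Vd g u R₀ n τ v h o, D.ω = ω := by
  have a0 : ∀ i, 0 < (ω i).a := fun i => (ω i).u0.trans_le (ω i).ua
  obtain ⟨lin⟩ := hl (fun i => ((ω i).a + (ω i).l 0) / 2) fun i => by linarith [a0 i, (ω i).al]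
  obtain ⟨vf⟩ := hf
  exact ⟨⟨ω, hn, dep, _, fun i => by linarith [(ω i).al], fun i => by linarith [(ω i).al], lin, vf⟩, rfl⟩

/-- **the vertex data exist** once the parametrix does -/
theorem exists_vd (hn : 0 < n) (ω : ∀ i, Wd g u R₀ n (τ i) (st v h i) (o i))
    (dep : ∀ i j, i ≠ j → (ω i).Dep (ω j)) (hf : Nonempty (VF ω)) :
    ∃ D : Vd g u R₀ n τ v h o, D.ω = ω :=
  exists_vd_of hn ω dep (fun _ hc => Vl.exists_lin hn dep hc) hf

end scalar

variable {p : ℕ} [Fact p.Prime] {g : Geo F (ZMod p) S X} {u R₀ : ℝ} {n : ℕ} {τ : ∀ i, Ty (J i)}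
  {v : F3} {h o : Fin 3 → Bool}

namespace Vd
variable (D : Vd g u R₀ n τ v h o)

theorem V0_MP : D.V0.M.P = g.E.toLev.Pv v h u R₀ := rfl

theorem V0_TP (i : Fin 3) : (D.V0.T i).P = g.E.toLev.Lb R₀ (g.w.T (st v h i)) :=
  congrArg (g.E.toLev.Lb R₀) (Lev.T_ek (w := g.w) (e := Sg.em v h o) (fun _ => rfl) i)

variable {D} in
theorem Off.mono {K : Set X} {R R' : ℝ} (O : D.Off K R) (hR : R ≤ R') : D.Off K R' :=
  { O with le := O.le.trans hR, rad := fun x hx => (O.rad x hx).trans hR }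

/-- **the compact set**, containing any prescribed compact set `K₀` -/
theorem exists_off' {K₀ : Set X} (h0 : IsCompact K₀) :
    ∃ K R, K₀ ⊆ K ∧ ∀ R', R ≤ R' → D.Off K R' := by
  have hB := (D.ω 0).big
  have u0 := (D.ω 0).u0.le
  obtain ⟨B1, c1, e1⟩ := D.fam.far D.vf.cc
  obtain ⟨B2, c2, e2⟩ := exists_van_off D.lin.cc
  obtain ⟨B3, c3, e3⟩ := exists_van_off (ι := Cl3 J) fun q => (D.ω q.1).cx_cc q.2
  obtain ⟨B4, c4, e4⟩ := g.E.toLev.exists_off_Pv v h u0 hB le_rfl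
  obtain ⟨B5, c5, e5⟩ := Lev.exists_B (v := v) (h := h) hB u0 D.u_lt_c
  choose B6 c6 e6 using fun i => g.E.toLev.exists_off_Lb hB le_rfl (st v h i)
  set K := K₀ ∪ (B1 ∪ (B2 ∪ (B3 ∪ (B4 ∪ (B5 ∪ ⋃ i, B6 i))))) with hK
  have cK : IsCompact K := h0.union (c1.union (c2.union (c3.union (c4.union
    (c5.union (isCompact_iUnion c6))))))
  have s1 : B1 ⊆ K := fun x hx => by simp [hK, hx]
  have s2 : B2 ⊆ K := fun x hx => by simp [hK, hx]
  have s3 : B3 ⊆ K := fun x hx => by simp [hK, hx]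
  have s4 : B4 ⊆ K := fun x hx => by simp [hK, hx]
  have s5 : B5 ⊆ K := fun x hx => by simp [hK, hx]
  have s6 : ∀ i, B6 i ⊆ K := fun i x hx => .inr (.inr (.inr (.inr (.inr (.inr (mem_iUnion.2 ⟨i, hx⟩))))))
  obtain ⟨R₁, hr⟩ := g.E.toLev.exists_rad cK
  have pv := e4 K s4 (fun _ => 1 - u) fun _ => le_rfl
  refine ⟨K, max R₀ R₁, subset_union_left, fun R hR => ⟨cK, (le_max_left _ _).trans hR,
    hr R ((le_max_right _ _).trans hR), fun σ hσ => ?_, fun q => van_supp s2 (e2 q),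
    fun i x => van_supp s3 (e3 ⟨i, x⟩), pv, fun i e he hs => ?_, fun i => ?_⟩⟩
  · rw [e1 σ (On_le (compl_subset_compl.2 s1) 1 hσ)]
    refine Lp.pl_eq (Finset.sum_eq_zero fun q _ => ?_)
    rw [van_supp s2 (e2 q) σ hσ, zero_smul]
  · rw [V0_TP]
    exact e5 e ⟨⟨pv 1 he, he.1.2⟩, On_le (compl_subset_compl.2 s5) 1 he.2⟩ i hs
  · rw [V0_TP]
    exact e6 i K (s6 i) u (1 - u) le_rfl le_rfl

/-- **the compact set** -/
theorem exists_off : ∃ K R, ∀ R', R ≤ R' → D.Off K R' :=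
  let ⟨K, R, _, h⟩ := D.exists_off' isCompact_empty
  ⟨K, R, h⟩

end Vd

end Crest.Agent.N255.Ma

end
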