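import Crest.Agent.N255.Ma.Vd
import Crest.Agent.N255.Cs.Id

/-!
# Row 255 (helper93): the end hypotheses of the vertex identity on `Vd.vt`
-/

set_option autoImplicit false
open Set Module Sum

noncomputable section

namespace Crest.Agent.N255.Ma.Vd
open Tp Nv Pt Lv En Wn Le Cs Cs.Tw _root_.N255.Core _root_.N255.Dr _root_.N255.Dr.O

variable {F : Subgroup F3} {S : Type} [MulAction F3 S] {X : Type} [TopologicalSpace X]
  [MulAction F X] [ContinuousConstSMul F X] {p : ℕ} [Fact p.Prime] {J : Fin 3 → Type}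
  [∀ i, Fintype (J i)] {g : Geo F (ZMod p) S X} {u R₀ : ℝ} {n : ℕ} {τ : ∀ i, Ty (J i)} {v : F3}
  {h o : Fin 3 → Bool} (D : Vd g u R₀ n τ v h o)

theorem id_LV : (G2 p J).Id D.LV :=
  D.id_XV.sup ((G2 p J).id_span_hg fun _ ⟨_, _, _, e⟩ => ⟨_, e ▸ G2_z p J _⟩)

theorem XV_le_LV : D.XV ≤ D.LV := le_sup_left

theorem N3_le_XV : NV p J o * NV p J o * NV p J o ≤ D.XV := le_sup_right

theorem N3_le_LV : NV p J o * NV p J o * NV p J o ≤ D.LV := D.N3_le_XV.trans D.XV_le_LV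

theorem ja_end (j : Fin 3) : In D.XV (Ms.ja D.V0 (xM p J o) (aV p J) j) :=
  Ideal.mem_sup_left (Gr.mem_sp ⟨j, rfl⟩)

theorem ja_mx (j : Fin 3) : In mx (Ms.ja D.V0 (xM p J o) (aV p J) j) := by
  unfold Ms.ja
  split_ifs
  · exact In.eq (In.sub (uV_U p ⟨j, inr true⟩) (xM_U p o j)) (by simp only [aV]; abel)
  · exact In.eq (In.sub (uV_U p ⟨j, inr true⟩) (D.la_in j)) (by simp only [aV, la]; abel)

theorem XV_le : D.XV ≤ mx :=
  sup_le ((G2_mx p J).sp_le.2 (by rintro _ ⟨j, rfl⟩; exact D.ja_mx j))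
    (Ideal.mul_le_right.trans (NV_le p o))

theorem LV_le : D.LV ≤ mx := sup_le D.XV_le (Ideal.span_le.2 fun _ ⟨_, _, _, e⟩ => e ▸ z_mem _)

omit D in
/-- hypothesis `hM` -/
theorem aV_M (j : Fin 3) (q : o j = true) : aV p J j = xM p J o j := by rw [aV, xM, q]

theorem bV_M {j : Fin 3} (q : o j = true) : (D.bV j).val = 1 + (D.la j + xV p ⟨j, inr false⟩) := by
  rw [bV, if_pos q, val_un]

theorem bV_L {j : Fin 3} (q : o j = false) : D.bV j = xM p J o j := by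
  rw [bV, if_neg (by simp [q]), xM, q]

theorem jb_M {j : Fin 3} (q : o j = true) : Ms.jb D.V0 (xM p J o) D.bV j = xV p ⟨j, inr false⟩ := by
  rw [Ms.jb, if_pos q, D.bV_M q, la]; abel

theorem jb_L {j : Fin 3} (q : o j = false) : Ms.jb D.V0 (xM p J o) D.bV j = 0 := by
  rw [Ms.jb, if_neg (by simp [q]), D.bV_L q, sub_self]

theorem jb_LV (j : Fin 3) : In D.LV (Ms.jb D.V0 (xM p J o) D.bV j) := by
  rcases Bool.eq_false_or_eq_true (o j) with q | q
  · rw [D.jb_M q]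
    exact Ideal.mem_sup_right (sum_mem fun γ _ => Ideal.subset_span ⟨j, γ, q, rfl⟩)
  · rw [D.jb_L q]; exact in_zero

variable {D} {K : Set X} {R : ℝ} {σ : Fin 3 → Ch (ZMod p) 3 X} (hs : ∀ i, (D.ω i).Sig R (σ i))
  (hR : R₀ ≤ R) (r : D.Rc K R σ)

theorem vt_la (x : Fin 3 → (Tw (G2 p J))ˣ) (j : Fin 3) : (D.vt hs hR r).la x j = D.V0.la x j := rfl

theorem vt_e : (D.vt hs hR r).e = g.L.ε v h := rfl

theorem vt_s (j : Fin 3) : ((D.vt hs hR r).T j).s = (hs j).T.s := rfl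

theorem vt_W (j : Fin 3) {B : Type} [CommRing B] [Algebra (ZMod p) B] [Fact ((p : B) = 0)]
    {G : Gr (Cs.Gm p) (ZMod p) B} (c : Ch (ZMod p) 3 X) (γ : Cn G X) (a b : (Tw G)ˣ) :
    ((D.vt hs hR r).T j).W c γ a b = (hs j).T.W c γ a b := rfl

/-- hypothesis `hσ` -/
theorem bd_end : bd (ZMod p) (∑ z, r.ρ z) = (D.vt hs hR r).c + ∑ j, if o j then σ j else -σ j := r.bd

/-- hypothesis `ha` (already in `XV`) -/
theorem vt_ha (j : Fin 3) (q : o j = false) :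
    In D.XV ((aV p J j).val - (1 + (D.vt hs hR r).la (xM p J o) j)) := by
  have := D.ja_end j
  rwa [Ms.ja, if_neg (by simp [q])] at this

/-- hypothesis `hb` -/
theorem vt_hb (j : Fin 3) : In D.LV ((D.bV j).val -
    if o j then 1 + (D.vt hs hR r).la (xM p J o) j else (xM p J o j).val) := D.jb_LV j

theorem vt_off (O : D.Off K R) : (D.vt hs hR r).M.P.Le
    ((g.E.toLev.Sb (Vc.core D.L.s fun _ => 1 - u)).inf (On Kᶜ)) := fun m _ q =>
  ⟨⟨fun _ hx i => ((Sg.Pc_le m q.1).1 hx i).trans_le (D.r_le i n), (Sg.Pc_le m q.1).2⟩,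
    Sg.Pc_off O.rad m q.1⟩

/-- **hypothesis `h`** -/
theorem eh (O : D.Off K R) : ∀ s ∈ (D.vt hs hR r).M.P.S 1, In D.LV ((D.GV s).val -
    (1 + (D.vt hs hR r).M.v (fun i => (xM p J o i).val - 1) s)) := fun s q => by
  have q' := vt_off hs hR r O 1 q
  rw [O.G s q'.2]
  exact Ms.bs_std (V := D.V0) (id_NV p o) D.id_LV (NV_le p o) D.N3_le_LV (xM_N p o)
    (fun _ => uV_U p _) D.bV_U fun j e => ⟨O.sl j s q' e, D.XV_le_LV (D.ja_end j), D.jb_LV j⟩

theorem disj_end (D : Vd g u R₀ n τ v h o) : Pairwise fun i j => Disjoint (D.C i) (D.C j) :=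
  fun _ _ e => disjoint_left.2 (Vl.hi_compl e (D.c_pos _).le (D.c_pos _).le)

/-- **hypothesis `e`** -/
theorem ee (O : D.Off K R) (j : Fin 3) : ((D.vt hs hR r).T j).Bc D.GV (aV p J j) (D.bV j) :=
  fun s q => by
    rw [O.G s fun y hy z => (O.rad y z).not_gt (q.1 hy).1, G0, Ms.bs_some (Ms.slv_in D.disj_end
      fun y hy => ((D.cl j).le.trans (Vl.l_le (D.ω j) n.zero_le)).trans_lt (q.1 hy).2.1)]
    rfl

/-- **the vertex identity on `Vd`** -/
theorem phi (O : D.Off K R) {H : Ideal (OV p J)} {W : Fin 3 → OV p J}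
    (hW : ∀ j, W j - (hs j).T.W (σ j) D.GV (aV p J j) (D.bV j) ∈ H) :
    (∑ j, if o j then W j else -W j) + (D.vt hs hR r).A (xM p J o) (aV p J) -
      ev (ZMod p) (PP D.GV) (∑ z, r.ρ z) ∈
        D.LV * D.LV ⊔ (mx * (NV p J o * NV p J o * NV p J o) ⊔ H) :=
  (D.vt hs hR r).phi (G2_mx p J) Tg.mx_nil (id_NV p o) D.id_LV (NV_le p o) D.LV_le D.N3_le_LV
    (xM_N p o) aV_M (fun j q => D.XV_le_LV (vt_ha hs hR r j q)) (vt_hb hs hR r) (eh hs hR r O)
    (ee hs hR r O) (bd_end hs hR r) hW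

end Crest.Agent.N255.Ma.Vd

end
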